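import Mathlib

/-!
# P300: local model of a covering near a crossing point

A covering `q : T → (D_ρ)* × (D_σ)*` given by `Φ : {Re z < log ρ} × {Re w < log σ} × F → T` over
`(exp z, exp w)` with monodromies `a`, `b` (commuting permutations of the discrete set `F`), all of
whose local lattices are product lattices `p ℤ × q ℤ`, is the disjoint union over the orbits of
`⟨a, b⟩` of the coverings `(r, s) ↦ (r ^ p, s ^ q)` of punctured bidiscs.
-/

namespace Vale.Agent.P300.H708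

open Set Filter Topology Complex

/-! ### Generalities -/

/-- If `g` is a local homeomorphism, `f` is continuous and `g ∘ f` is open, then `f` is open. -/
theorem isOpenMap_of_comp {X Y Z : Type*} [TopologicalSpace X] [TopologicalSpace Y]
    [TopologicalSpace Z] {g : Y → Z} {f : X → Y} (hg : IsLocalHomeomorph g) (hf : Continuous f)
    (hgf : IsOpenMap (g ∘ f)) : IsOpenMap f := by
  intro N hN
  rw [isOpen_iff_mem_nhds]
  rintro _ ⟨x, hx, rfl⟩
  obtain ⟨e, he, rfl⟩ := hg (f x)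
  have hN' : IsOpen (N ∩ f ⁻¹' e.source) := hN.inter (e.open_source.preimage hf)
  have h1 : IsOpen ((e ∘ f) '' (N ∩ f ⁻¹' e.source)) := hgf _ hN'
  have h2 : (e ∘ f) '' (N ∩ f ⁻¹' e.source) ⊆ e.target := by
    rintro _ ⟨y, hy, rfl⟩
    exact e.map_source hy.2
  have h3 : e.symm '' ((e ∘ f) '' (N ∩ f ⁻¹' e.source)) = f '' (N ∩ f ⁻¹' e.source) := by
    rw [image_image]
    exact image_congr fun y hy => e.left_inv hy.2
  have h4 : IsOpen (f '' (N ∩ f ⁻¹' e.source)) := by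
    rw [← h3]
    exact e.symm.isOpen_image_of_subset_source h1 h2
  exact mem_of_superset (h4.mem_nhds ⟨x, ⟨hx, he⟩, rfl⟩) (image_mono inter_subset_left)

/-- the punctured disc of radius `ρ` -/
def PD (ρ : ℝ) : Set ℂ := {r | r ≠ 0 ∧ ‖r‖ < ρ}

/-- the half plane over it -/
def HP (ρ : ℝ) : Set ℂ := {z | z.re < Real.log ρ}

theorem exp_mem_PD {ρ : ℝ} (hρ : 0 < ρ) {z : ℂ} (hz : z ∈ HP ρ) : exp z ∈ PD ρ := by
  refine ⟨exp_ne_zero z, ?_⟩
  rw [norm_exp]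
  have h : Real.exp z.re < Real.exp (Real.log ρ) := Real.exp_lt_exp.mpr hz
  rwa [Real.exp_log hρ] at h

theorem isOpen_PD (ρ : ℝ) : IsOpen (PD ρ) := by
  have h : PD ρ = {r | r ≠ 0} ∩ {r : ℂ | ‖r‖ < ρ} := rfl
  rw [h]
  exact isOpen_ne.inter (isOpen_lt continuous_norm continuous_const)

theorem isOpen_HP (ρ : ℝ) : IsOpen (HP ρ) := isOpen_lt continuous_re continuous_const

/-- radius upstairs -/
noncomputable def rad (ρ : ℝ) (p : ℕ) : ℝ := ρ ^ ((p : ℝ)⁻¹)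

theorem rad_pos {ρ : ℝ} (hρ : 0 < ρ) (p : ℕ) : 0 < rad ρ p := Real.rpow_pos_of_pos hρ _

theorem rad_pow {ρ : ℝ} (hρ : 0 < ρ) {p : ℕ} (hp : 0 < p) : rad ρ p ^ p = ρ := by
  rw [rad, Real.rpow_inv_natCast_pow hρ.le hp.ne']

theorem log_rad {ρ : ℝ} (hρ : 0 < ρ) {p : ℕ} (hp : 0 < p) :
    p * Real.log (rad ρ p) = Real.log ρ := by
  rw [rad, Real.log_rpow hρ]
  have : (p : ℝ) ≠ 0 := by exact_mod_cast hp.ne'
  field_simp

theorem mem_PD_rad {ρ : ℝ} (hρ : 0 < ρ) {p : ℕ} (hp : 0 < p) {r : ℂ} :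
    r ∈ PD (rad ρ p) ↔ r ^ p ∈ PD ρ := by
  simp only [PD, mem_ofPred_eq, norm_pow]
  refine and_congr (by rw [Ne, Ne, pow_eq_zero_iff hp.ne']) ?_
  rw [← pow_lt_pow_iff_left₀ (norm_nonneg r) (rad_pos hρ p).le hp.ne', rad_pow hρ hp]

/-- `p L ∈ HP ρ` if `exp L` is in the punctured disc upstairs -/
theorem mul_mem_HP {ρ : ℝ} (hρ : 0 < ρ) {p : ℕ} (hp : 0 < p) {L : ℂ}
    (h : exp L ∈ PD (rad ρ p)) : (p : ℂ) * L ∈ HP ρ := by
  have h1 : L.re < Real.log (rad ρ p) := by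
    have h2 := h.2
    rw [norm_exp] at h2
    rwa [Real.lt_log_iff_exp_lt (rad_pos hρ p)]
  have h3 : ((p : ℂ) * L).re = p * L.re := by simp
  show ((p : ℂ) * L).re < Real.log ρ
  rw [h3, ← log_rad hρ hp]
  exact mul_lt_mul_of_pos_left h1 (by exact_mod_cast hp)

theorem exp_mul_nat (p : ℕ) (L : ℂ) : exp ((p : ℂ) * L) = exp L ^ p := Complex.exp_nat_mul L p

/-- local branch of the logarithm -/
theorem exists_log_branch {r₀ : ℂ} (h : r₀ ≠ 0) :
    ∃ L : ℂ → ℂ, ContinuousAt L r₀ ∧ ∀ᶠ r in 𝓝 r₀, exp (L r) = r := by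
  refine ⟨fun r => log (r / r₀) + log r₀, ?_, ?_⟩
  · have h1 : ContinuousAt (fun r : ℂ => log (r / r₀)) r₀ := by
      have h2 : ContinuousAt (fun r : ℂ => r / r₀) r₀ := by fun_prop
      refine h2.clog ?_
      rw [div_self h]
      exact one_mem_slitPlane
    exact h1.add continuousAt_const
  · filter_upwards [isOpen_ne.mem_nhds h] with r hr
    rw [exp_add, exp_log (div_ne_zero hr h), exp_log h, div_mul_cancel₀ _ h]

theorem isOpenMap_pow_sub {ρ : ℝ} {p : ℕ} (hp : 0 < p) :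
    IsOpenMap fun r : PD ρ => (r : ℂ) ^ p := by
  rw [isOpenMap_iff_nhds_le]
  rintro ⟨r, hr⟩
  have h1 : HasStrictDerivAt (fun z : ℂ => z ^ p) (p * r ^ (p - 1)) r := hasStrictDerivAt_pow p r
  have h2 : (p : ℂ) * r ^ (p - 1) ≠ 0 :=
    mul_ne_zero (by exact_mod_cast hp.ne') (pow_ne_zero _ hr.1)
  have h3 := h1.map_nhds_eq h2
  have h4 : map (fun z : PD ρ => (z : ℂ)) (𝓝 ⟨r, hr⟩) = 𝓝 r :=
    map_nhds_subtype_coe_eq_nhds hr ((isOpen_PD ρ).mem_nhds hr)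
  have h5 : map (fun r : PD ρ => (r : ℂ) ^ p) (𝓝 ⟨r, hr⟩) = 𝓝 (r ^ p) := by
    rw [← h3, ← h4, Filter.map_map]
    rfl
  exact h5.ge

/-! ### The data -/

/-- A covering of `(D_ρ)* × (D_σ)*` in logarithmic coordinates. -/
structure Loc (F T : Type*) [TopologicalSpace T] (ρ σ : ℝ) where
  a : Equiv.Perm F
  b : Equiv.Perm F
  comm : Commute a b
  q : T → ℂ × ℂ
  lhq : IsLocalHomeomorph q
  Φ : ℂ → ℂ → F → T
  cont : ∀ v, ContinuousOn (fun x : ℂ × ℂ => Φ x.1 x.2 v) (HP ρ ×ˢ HP σ)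
  ovr : ∀ z ∈ HP ρ, ∀ w ∈ HP σ, ∀ v, q (Φ z w v) = (exp z, exp w)
  inj : ∀ z ∈ HP ρ, ∀ w ∈ HP σ, ∀ v v', Φ z w v = Φ z w v' → v = v'
  surj : ∀ t, ∃ z ∈ HP ρ, ∃ w ∈ HP σ, ∃ v, Φ z w v = t
  mon₁ : ∀ z ∈ HP ρ, ∀ w ∈ HP σ, ∀ v, Φ (z + 2 * Real.pi * I) w v = Φ z w (a v)
  mon₂ : ∀ z ∈ HP ρ, ∀ w ∈ HP σ, ∀ v, Φ z (w + 2 * Real.pi * I) v = Φ z w (b v)

namespace Loc

variable {F T : Type*} [TopologicalSpace T] {ρ σ : ℝ} (D : Loc F T ρ σ)

theorem add_mem_HP {ρ : ℝ} {z : ℂ} (hz : z ∈ HP ρ) (m : ℤ) : z + m * (2 * Real.pi * I) ∈ HP ρ := by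
  show (z + m * (2 * Real.pi * I)).re < Real.log ρ
  have : (z + m * (2 * Real.pi * I)).re = z.re := by simp
  rw [this]; exact hz

theorem mon₁' {z w : ℂ} (hz : z ∈ HP ρ) (hw : w ∈ HP σ) (m : ℤ) (v : F) :
    D.Φ (z + m * (2 * Real.pi * I)) w v = D.Φ z w ((D.a ^ m) v) := by
  induction m using Int.induction_on generalizing v with
  | zero => simp
  | succ k ih =>
    have e : z + ((k + 1 : ℤ) : ℂ) * (2 * Real.pi * I) =
        (z + ((k : ℤ) : ℂ) * (2 * Real.pi * I)) + 2 * Real.pi * I := by push_cast; ring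
    rw [e, D.mon₁ _ (add_mem_HP hz _) _ hw, ih, ← Equiv.Perm.mul_apply, ← zpow_add_one]
  | pred k ih =>
    have e : z + ((-k : ℤ) : ℂ) * (2 * Real.pi * I) =
        (z + ((-k - 1 : ℤ) : ℂ) * (2 * Real.pi * I)) + 2 * Real.pi * I := by push_cast; ring
    have h1 := ih (D.a⁻¹ v)
    rw [e, D.mon₁ _ (add_mem_HP hz _) _ hw, ← Equiv.Perm.mul_apply, mul_inv_cancel,
      Equiv.Perm.one_apply] at h1
    rw [h1, ← Equiv.Perm.mul_apply, ← zpow_neg_one, ← zpow_add]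
    rfl

theorem mon₂' {z w : ℂ} (hz : z ∈ HP ρ) (hw : w ∈ HP σ) (m : ℤ) (v : F) :
    D.Φ z (w + m * (2 * Real.pi * I)) v = D.Φ z w ((D.b ^ m) v) := by
  induction m using Int.induction_on generalizing v with
  | zero => simp
  | succ k ih =>
    have e : w + ((k + 1 : ℤ) : ℂ) * (2 * Real.pi * I) =
        (w + ((k : ℤ) : ℂ) * (2 * Real.pi * I)) + 2 * Real.pi * I := by push_cast; ring
    rw [e, D.mon₂ _ hz _ (add_mem_HP hw _), ih, ← Equiv.Perm.mul_apply, ← zpow_add_one]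
  | pred k ih =>
    have e : w + ((-k : ℤ) : ℂ) * (2 * Real.pi * I) =
        (w + ((-k - 1 : ℤ) : ℂ) * (2 * Real.pi * I)) + 2 * Real.pi * I := by push_cast; ring
    have h1 := ih (D.b⁻¹ v)
    rw [e, D.mon₂ _ hz _ (add_mem_HP hw _), ← Equiv.Perm.mul_apply, mul_inv_cancel,
      Equiv.Perm.one_apply] at h1
    rw [h1, ← Equiv.Perm.mul_apply, ← zpow_neg_one, ← zpow_add]
    rfl

theorem mon {z w : ℂ} (hz : z ∈ HP ρ) (hw : w ∈ HP σ) (m n : ℤ) (v : F) :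
    D.Φ (z + m * (2 * Real.pi * I)) (w + n * (2 * Real.pi * I)) v =
      D.Φ z w ((D.a ^ m * D.b ^ n) v) := by
  rw [D.mon₁' hz (add_mem_HP hw n), D.mon₂' hz hw, ← Equiv.Perm.mul_apply,
    (D.comm.zpow_zpow m n).eq]

/-- Equality of two values of `Φ`. -/
theorem Φ_eq_iff {z z' w w' : ℂ} (hz : z ∈ HP ρ) (hz' : z' ∈ HP ρ) (hw : w ∈ HP σ)
    (hw' : w' ∈ HP σ) {v v' : F} :
    D.Φ z w v = D.Φ z' w' v' ↔ ∃ m n : ℤ, z = z' + m * (2 * Real.pi * I) ∧
      w = w' + n * (2 * Real.pi * I) ∧ (D.a ^ m * D.b ^ n) v = v' := by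
  constructor
  · intro h
    have h1 := congrArg D.q h
    rw [D.ovr _ hz _ hw, D.ovr _ hz' _ hw', Prod.mk.injEq, exp_eq_exp_iff_exists_int,
      exp_eq_exp_iff_exists_int] at h1
    obtain ⟨⟨m, hm⟩, n, hn⟩ := h1
    refine ⟨m, n, hm, hn, ?_⟩
    rw [hm, hn, D.mon hz' hw'] at h
    exact D.inj _ hz' _ hw' _ _ h
  · rintro ⟨m, n, rfl, rfl, rfl⟩
    exact D.mon hz' hw' m n v

/-- The orbit relation of the local group. -/
def rel : Setoid F where
  r v v' := ∃ m n : ℤ, (D.a ^ m * D.b ^ n) v = v'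
  iseqv :=
    { refl := fun v => ⟨0, 0, by simp⟩
      symm := by
        rintro v v' ⟨m, n, rfl⟩
        refine ⟨-m, -n, ?_⟩
        rw [← Equiv.Perm.mul_apply]
        have : D.a ^ (-m) * D.b ^ (-n) * (D.a ^ m * D.b ^ n) = 1 := by
          rw [(D.comm.zpow_zpow m n).eq, mul_assoc, ← mul_assoc (D.b ^ (-n)), ← zpow_add]
          simp
        rw [this]; rfl
      trans := by
        rintro v v' v'' ⟨m, n, rfl⟩ ⟨m', n', rfl⟩
        refine ⟨m' + m, n' + n, ?_⟩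
        rw [← Equiv.Perm.mul_apply, zpow_add, zpow_add]
        congr 1
        rw [mul_assoc, mul_assoc, ← mul_assoc (D.a ^ m), ← mul_assoc (D.b ^ n'),
          (D.comm.zpow_zpow m n').eq] }

/-- Product lattices. -/
structure Prd (p q : F → ℕ) : Prop where
  p_pos : ∀ v, 0 < p v
  q_pos : ∀ v, 0 < q v
  iff : ∀ v (m n : ℤ), (D.a ^ m * D.b ^ n) v = v ↔ (p v : ℤ) ∣ m ∧ (q v : ℤ) ∣ n

/-- base point of an orbit -/
noncomputable def base (o : Quotient D.rel) : F := o.out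

variable {D} {p q : F → ℕ}

/-- The model: disjoint union of punctured bidiscs. -/
abbrev Mod (D : Loc F T ρ σ) (p q : F → ℕ) : Type _ :=
  Σ o : Quotient D.rel, (PD (rad ρ (p (D.base o))) × PD (rad σ (q (D.base o))) : Type)

/-- The parametrisation. -/
noncomputable def chi (D : Loc F T ρ σ) (p q : F → ℕ) (x : Mod D p q) : T :=
  D.Φ (p (D.base x.1) * log (x.2.1 : ℂ)) (q (D.base x.1) * log (x.2.2 : ℂ)) (D.base x.1)

/-- It may be computed with any logarithms. -/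
theorem chi_eq (hρ : 0 < ρ) (hσ : 0 < σ) (H : D.Prd p q) (o : Quotient D.rel)
    (r : PD (rad ρ (p (D.base o)))) (s : PD (rad σ (q (D.base o)))) {L M : ℂ}
    (hL : exp L = r) (hM : exp M = s) :
    chi D p q ⟨o, r, s⟩ = D.Φ (p (D.base o) * L) (q (D.base o) * M) (D.base o) := by
  have hr : exp (log (r : ℂ)) = r := exp_log r.2.1
  have hs : exp (log (s : ℂ)) = s := exp_log s.2.1
  have e1 : (p (D.base o) : ℂ) * L ∈ HP ρ := mul_mem_HP hρ (H.p_pos _) (by rw [hL]; exact r.2)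
  have e2 : (q (D.base o) : ℂ) * M ∈ HP σ := mul_mem_HP hσ (H.q_pos _) (by rw [hM]; exact s.2)
  have e3 : (p (D.base o) : ℂ) * log (r : ℂ) ∈ HP ρ :=
    mul_mem_HP hρ (H.p_pos _) (by rw [hr]; exact r.2)
  have e4 : (q (D.base o) : ℂ) * log (s : ℂ) ∈ HP σ :=
    mul_mem_HP hσ (H.q_pos _) (by rw [hs]; exact s.2)
  obtain ⟨m, hm⟩ := exp_eq_exp_iff_exists_int.mp (hr.trans hL.symm)
  obtain ⟨n, hn⟩ := exp_eq_exp_iff_exists_int.mp (hs.trans hM.symm)
  unfold chi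
  rw [D.Φ_eq_iff e3 e1 e4 e2]
  refine ⟨p (D.base o) * m, q (D.base o) * n, ?_, ?_, ?_⟩
  · show (p (D.base o) : ℂ) * log (r : ℂ) = _
    rw [hm]; push_cast; ring
  · show (q (D.base o) : ℂ) * log (s : ℂ) = _
    rw [hn]; push_cast; ring
  · rw [H.iff]
    exact ⟨dvd_mul_right _ _, dvd_mul_right _ _⟩

theorem q_chi (hρ : 0 < ρ) (hσ : 0 < σ) (H : D.Prd p q) (x : Mod D p q) :
    D.q (chi D p q x) = ((x.2.1 : ℂ) ^ p (D.base x.1), (x.2.2 : ℂ) ^ q (D.base x.1)) := by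
  obtain ⟨o, r, s⟩ := x
  have hr : exp (log (r : ℂ)) = r := exp_log r.2.1
  have hs : exp (log (s : ℂ)) = s := exp_log s.2.1
  unfold chi
  rw [D.ovr _ (mul_mem_HP hρ (H.p_pos _) (by rw [hr]; exact r.2)) _
    (mul_mem_HP hσ (H.q_pos _) (by rw [hs]; exact s.2)), exp_mul_nat, exp_mul_nat, hr, hs]

theorem continuous_chi (hρ : 0 < ρ) (hσ : 0 < σ) (H : D.Prd p q) : Continuous (chi D p q) := by
  rw [continuous_sigma_iff]
  intro o
  rw [continuous_iff_continuousAt]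
  rintro ⟨⟨r, hr⟩, ⟨s, hs⟩⟩
  obtain ⟨L, hL, hL'⟩ := exists_log_branch hr.1
  obtain ⟨M, hM, hM'⟩ := exists_log_branch hs.1
  have hr0 : exp (L r) = r := hL'.self_of_nhds
  have hs0 : exp (M s) = s := hM'.self_of_nhds
  have cL : ContinuousAt (fun x : PD (rad ρ (p (D.base o))) × PD (rad σ (q (D.base o))) =>
      ((p (D.base o) : ℂ) * L x.1, (q (D.base o) : ℂ) * M x.2)) (⟨r, hr⟩, ⟨s, hs⟩) := by
    have c1 : ContinuousAt (fun x : PD (rad ρ (p (D.base o))) × PD (rad σ (q (D.base o))) =>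
        L x.1) (⟨r, hr⟩, ⟨s, hs⟩) := by
      refine ContinuousAt.comp (g := L) ?_ (continuous_subtype_val.comp continuous_fst).continuousAt
      exact hL
    have c2 : ContinuousAt (fun x : PD (rad ρ (p (D.base o))) × PD (rad σ (q (D.base o))) =>
        M x.2) (⟨r, hr⟩, ⟨s, hs⟩) := by
      refine ContinuousAt.comp (g := M) ?_ (continuous_subtype_val.comp continuous_snd).continuousAt
      exact hM
    exact (continuousAt_const.mul c1).prodMk (continuousAt_const.mul c2)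
  have hmem : ((p (D.base o) : ℂ) * L r, (q (D.base o) : ℂ) * M s) ∈ HP ρ ×ˢ HP σ :=
    ⟨mul_mem_HP hρ (H.p_pos _) (by rw [hr0]; exact hr),
      mul_mem_HP hσ (H.q_pos _) (by rw [hs0]; exact hs)⟩
  have cΦ : ContinuousAt (fun x : ℂ × ℂ => D.Φ x.1 x.2 (D.base o))
      ((p (D.base o) : ℂ) * L r, (q (D.base o) : ℂ) * M s) :=
    (D.cont (D.base o)).continuousAt (((isOpen_HP ρ).prod (isOpen_HP σ)).mem_nhds hmem)
  have key := ContinuousAt.comp (f := fun x : PD (rad ρ (p (D.base o))) ×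
    PD (rad σ (q (D.base o))) => ((p (D.base o) : ℂ) * L x.1, (q (D.base o) : ℂ) * M x.2))
    (x := (⟨r, hr⟩, ⟨s, hs⟩)) cΦ cL
  refine key.congr ?_
  have e1 : ∀ᶠ x : PD (rad ρ (p (D.base o))) × PD (rad σ (q (D.base o))) in
      𝓝 (⟨r, hr⟩, ⟨s, hs⟩), exp (L x.1) = x.1 :=
    ((continuous_subtype_val.comp continuous_fst).continuousAt (x := ((⟨r, hr⟩, ⟨s, hs⟩) :
      PD (rad ρ (p (D.base o))) × PD (rad σ (q (D.base o)))))).eventually hL'
  have e2 : ∀ᶠ x : PD (rad ρ (p (D.base o))) × PD (rad σ (q (D.base o))) in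
      𝓝 (⟨r, hr⟩, ⟨s, hs⟩), exp (M x.2) = x.2 :=
    ((continuous_subtype_val.comp continuous_snd).continuousAt (x := ((⟨r, hr⟩, ⟨s, hs⟩) :
      PD (rad ρ (p (D.base o))) × PD (rad σ (q (D.base o)))))).eventually hM'
  filter_upwards [e1, e2] with x h1 h2
  exact (chi_eq hρ hσ H o x.1 x.2 h1 h2).symm

theorem isOpenMap_chi (hρ : 0 < ρ) (hσ : 0 < σ) (H : D.Prd p q) : IsOpenMap (chi D p q) := by
  refine isOpenMap_of_comp D.lhq (continuous_chi hρ hσ H) ?_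
  rw [isOpenMap_sigma]
  intro o
  have h : (fun x : PD (rad ρ (p (D.base o))) × PD (rad σ (q (D.base o))) =>
      (D.q ∘ chi D p q) ⟨o, x⟩) = Prod.map (fun r : PD (rad ρ (p (D.base o))) =>
      (r : ℂ) ^ p (D.base o)) (fun s : PD (rad σ (q (D.base o))) => (s : ℂ) ^ q (D.base o)) := by
    funext x
    exact q_chi hρ hσ H ⟨o, x⟩
  rw [h]
  exact (isOpenMap_pow_sub (H.p_pos _)).prodMap (isOpenMap_pow_sub (H.q_pos _))

theorem bijective_chi (hρ : 0 < ρ) (hσ : 0 < σ) (H : D.Prd p q) :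
    Function.Bijective (chi D p q) := by
  constructor
  · rintro ⟨o, r, s⟩ ⟨o', r', s'⟩ h
    have hr : exp (log (r : ℂ)) = r := exp_log r.2.1
    have hs : exp (log (s : ℂ)) = s := exp_log s.2.1
    have hr' : exp (log (r' : ℂ)) = r' := exp_log r'.2.1
    have hs' : exp (log (s' : ℂ)) = s' := exp_log s'.2.1
    unfold chi at h
    rw [D.Φ_eq_iff (mul_mem_HP hρ (H.p_pos _) (by rw [hr]; exact r.2))
      (mul_mem_HP hρ (H.p_pos _) (by rw [hr']; exact r'.2))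
      (mul_mem_HP hσ (H.q_pos _) (by rw [hs]; exact s.2))
      (mul_mem_HP hσ (H.q_pos _) (by rw [hs']; exact s'.2))] at h
    obtain ⟨m, n, h1, h2, h3⟩ := h
    simp only at h1 h2 h3
    have ho : o = o' := by
      rw [← Quotient.out_eq o, ← Quotient.out_eq o']
      exact Quotient.sound ⟨m, n, h3⟩
    subst ho
    obtain ⟨⟨k, rfl⟩, ⟨l, rfl⟩⟩ := (H.iff _ _ _).mp h3
    have hp : (p (D.base o) : ℂ) ≠ 0 := by exact_mod_cast (H.p_pos _).ne'
    have hq : (q (D.base o) : ℂ) ≠ 0 := by exact_mod_cast (H.q_pos _).ne'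
    have e1 : log (r : ℂ) = log (r' : ℂ) + k * (2 * Real.pi * I) := by
      apply mul_left_cancel₀ hp
      rw [h1]; push_cast; ring
    have e2 : log (s : ℂ) = log (s' : ℂ) + l * (2 * Real.pi * I) := by
      apply mul_left_cancel₀ hq
      rw [h2]; push_cast; ring
    have f1 : (r : ℂ) = r' := by
      rw [← hr, ← hr', exp_eq_exp_iff_exists_int]; exact ⟨k, e1⟩
    have f2 : (s : ℂ) = s' := by
      rw [← hs, ← hs', exp_eq_exp_iff_exists_int]; exact ⟨l, e2⟩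
    rw [Subtype.ext f1, Subtype.ext f2]
  · intro t
    obtain ⟨z, hz, w, hw, v, rfl⟩ := D.surj t
    obtain ⟨m, n, hmn⟩ : ∃ m n : ℤ, (D.a ^ m * D.b ^ n) (D.base (Quotient.mk D.rel v)) = v :=
      Quotient.exact (Quotient.out_eq (Quotient.mk D.rel v))
    set o := Quotient.mk D.rel v with ho
    have hp : (p (D.base o) : ℂ) ≠ 0 := by exact_mod_cast (H.p_pos _).ne'
    have hq : (q (D.base o) : ℂ) ≠ 0 := by exact_mod_cast (H.q_pos _).ne'
    set L : ℂ := (z + m * (2 * Real.pi * I)) / p (D.base o) with hL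
    set M : ℂ := (w + n * (2 * Real.pi * I)) / q (D.base o) with hM
    have eL : (p (D.base o) : ℂ) * L = z + m * (2 * Real.pi * I) := by
      rw [hL, mul_div_cancel₀ _ hp]
    have eM : (q (D.base o) : ℂ) * M = w + n * (2 * Real.pi * I) := by
      rw [hM, mul_div_cancel₀ _ hq]
    have hr : exp L ∈ PD (rad ρ (p (D.base o))) := by
      rw [mem_PD_rad hρ (H.p_pos _), ← exp_mul_nat, eL]
      exact exp_mem_PD hρ (add_mem_HP hz m)
    have hs : exp M ∈ PD (rad σ (q (D.base o))) := by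
      rw [mem_PD_rad hσ (H.q_pos _), ← exp_mul_nat, eM]
      exact exp_mem_PD hσ (add_mem_HP hw n)
    refine ⟨⟨o, ⟨exp L, hr⟩, ⟨exp M, hs⟩⟩, ?_⟩
    rw [chi_eq hρ hσ H o ⟨exp L, hr⟩ ⟨exp M, hs⟩ (L := L) (M := M) rfl rfl, eL, eM,
      D.mon hz hw, hmn]

/-- **Local model at a crossing point.** -/
noncomputable def homeo (hρ : 0 < ρ) (hσ : 0 < σ) (H : D.Prd p q) : Mod D p q ≃ₜ T :=
  (Equiv.ofBijective _ (bijective_chi hρ hσ H)).toHomeomorphOfContinuousOpen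
    (continuous_chi hρ hσ H) (isOpenMap_chi hρ hσ H)

@[simp] theorem homeo_apply (hρ : 0 < ρ) (hσ : 0 < σ) (H : D.Prd p q) (x : Mod D p q) :
    homeo hρ hσ H x = chi D p q x := rfl

end Loc

end Vale.Agent.P300.H708
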