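import Vale.Agent.P300.H863.Gsla2

/-!
# P300: from ideals of a group algebra to normal subgroups

`RN F S n = {g | g - 1 ∈ JS F S ⊔ I ^ n}` for any set `S` of elements of `F[Γ]`.
-/

namespace Vale.Agent.P300.H708

open Vale.Agent.P300.GS Submodule MonoidAlgebra

variable (F : Type*) [Field F] {Γ : Type*} [Group Γ]

/-- `J + I ^ n` -/
noncomputable abbrev KS (S : Set (MonoidAlgebra F Γ)) (n : ℕ) : Submodule F (MonoidAlgebra F Γ) :=
  JS F S ⊔ augF F Γ n

variable {F} {S : Set (MonoidAlgebra F Γ)} {n m : ℕ}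

theorem KS_mul_left (a : MonoidAlgebra F Γ) {x : MonoidAlgebra F Γ} (hx : x ∈ KS F S n) :
    a * x ∈ KS F S n := by
  obtain ⟨y, hy, z, hz, rfl⟩ := mem_sup.mp hx
  rw [mul_add]
  exact add_mem (mem_sup_left (JS_mul_left a hy)) (mem_sup_right (augF_mul_left a hz))

theorem KS_mul_right (a : MonoidAlgebra F Γ) {x : MonoidAlgebra F Γ} (hx : x ∈ KS F S n) :
    x * a ∈ KS F S n := by
  obtain ⟨y, hy, z, hz, rfl⟩ := mem_sup.mp hx
  rw [add_mul]
  exact add_mem (mem_sup_left (JS_mul_right a hy)) (mem_sup_right (augF_mul_right a hz))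

theorem KS_anti (h : m ≤ n) : KS F S n ≤ KS F S m := sup_le_sup_left (augF_anti h) _

/-- stability under an endomorphism of `Γ` -/
theorem KS_map (f : Γ →* Γ) (hf : ∀ s ∈ S, amap F f s ∈ JS F S) {x : MonoidAlgebra F Γ}
    (hx : x ∈ KS F S n) : amap F f x ∈ KS F S n := by
  obtain ⟨y, hy, z, hz, rfl⟩ := mem_sup.mp hx
  rw [map_add]
  refine add_mem (mem_sup_left ?_) (mem_sup_right (map_augF f hz))
  have hle : JS F S ≤ (JS F S).comap (amap F f).toLinearMap := by
    refine span_le.mpr ?_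
    rintro _ ⟨a, s, hs, b, rfl⟩
    change amap F f (a * s * b) ∈ JS F S
    rw [map_mul, map_mul]
    exact JS_mul_right _ (JS_mul_left _ (hf s hs))
  exact hle hy

variable (F S n) in
/-- The congruence subgroup of the ideal `J + I ^ n`. -/
noncomputable def RN : Subgroup Γ where
  carrier := {g | of F Γ g - 1 ∈ KS F S n}
  one_mem' := by
    show of F Γ 1 - 1 ∈ KS F S n
    rw [map_one, sub_self]
    exact zero_mem _
  mul_mem' := fun {a b} ha hb => by
    have e : of F Γ (a * b) - 1 = of F Γ a * (of F Γ b - 1) + (of F Γ a - 1) := by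
      rw [mul_sub, ← map_mul, mul_one]
      abel
    show of F Γ (a * b) - 1 ∈ KS F S n
    rw [e]
    exact add_mem (KS_mul_left _ hb) ha
  inv_mem' := fun {a} ha => by
    have e : of F Γ a⁻¹ - 1 = -(of F Γ a⁻¹ * (of F Γ a - 1)) := by
      rw [mul_sub, ← map_mul, inv_mul_cancel, map_one, mul_one]
      abel
    show of F Γ a⁻¹ - 1 ∈ KS F S n
    rw [e]
    exact neg_mem (KS_mul_left _ ha)

theorem mem_RN {g : Γ} : g ∈ RN F S n ↔ of F Γ g - 1 ∈ JS F S ⊔ augF F Γ n := Iff.rfl

theorem RN_of_mem {g : Γ} (h : of F Γ g - 1 ∈ S) : g ∈ RN F S n := mem_sup_left (subset_JS h)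

instance RN_normal : (RN F S n).Normal where
  conj_mem := fun a ha g => by
    have e : of F Γ (g * a * g⁻¹) - 1 = of F Γ g * (of F Γ a - 1) * of F Γ g⁻¹ := by
      rw [mul_sub, sub_mul, ← map_mul, ← map_mul, mul_one, ← map_mul, mul_inv_cancel, map_one]
    rw [mem_RN, e]
    exact KS_mul_right _ (KS_mul_left _ ha)

variable (F S) in
theorem RN_anti : Antitone (RN F S) := fun _ _ h _ hg => KS_anti h hg

/-- `R n` is stable under every endomorphism of `Γ` which maps the relators into the ideal. -/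
theorem RN_map (f : Γ →* Γ) (hf : ∀ s ∈ S, amap F f s ∈ JS F S) {g : Γ} (hg : g ∈ RN F S n) :
    f g ∈ RN F S n := by
  have h := KS_map f hf hg
  rw [map_sub, map_one, amap_of] at h
  exact h

theorem RN_iff {g h : Γ} : g⁻¹ * h ∈ RN F S n ↔ of F Γ h - of F Γ g ∈ KS F S n := by
  have e : of F Γ h - of F Γ g = of F Γ g * (of F Γ (g⁻¹ * h) - 1) := by
    rw [mul_sub, ← map_mul, mul_one, mul_inv_cancel_left]
  constructor
  · intro H
    rw [e]
    exact KS_mul_left _ H
  · intro H
    have e2 : of F Γ (g⁻¹ * h) - 1 = of F Γ g⁻¹ * (of F Γ h - of F Γ g) := by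
      rw [mul_sub, ← map_mul, ← map_mul, inv_mul_cancel, map_one]
    rw [mem_RN, e2]
    exact KS_mul_left _ H

/-- `Γ / R n` embeds into `F[Γ] / (J + I ^ n)`. -/
noncomputable def RNq (F : Type*) [Field F] (S : Set (MonoidAlgebra F Γ)) (n : ℕ) :
    Γ ⧸ RN F S n → MonoidAlgebra F Γ ⧸ KS F S n :=
  Quotient.lift (fun g : Γ => (KS F S n).mkQ (of F Γ g)) fun g h hgh => by
    have h1 : g⁻¹ * h ∈ RN F S n := QuotientGroup.leftRel_apply.mp hgh
    rw [mkQ_apply, mkQ_apply, eq_comm, Submodule.Quotient.eq]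
    exact RN_iff.mp h1

theorem RNq_mk (g : Γ) : RNq F S n (QuotientGroup.mk g) = (KS F S n).mkQ (of F Γ g) := rfl

theorem RNq_injective : Function.Injective (RNq F S n) := by
  intro x y
  induction x using QuotientGroup.induction_on with
  | H g =>
    induction y using QuotientGroup.induction_on with
    | H h =>
      intro hxy
      rw [RNq_mk, RNq_mk, mkQ_apply, mkQ_apply, eq_comm, Submodule.Quotient.eq] at hxy
      exact QuotientGroup.eq.mpr (RN_iff.mpr hxy)

/-- finite index over a finite field -/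
theorem RN_finiteIndex [Finite F] [FiniteDimensional F (MonoidAlgebra F Γ ⧸ KS F S n)] :
    (RN F S n).FiniteIndex := by
  have h1 : Finite (MonoidAlgebra F Γ ⧸ KS F S n) := Module.finite_of_finite F
  have h2 : Finite (Γ ⧸ RN F S n) := Finite.of_injective _ RNq_injective
  exact Subgroup.finiteIndex_of_finite_quotient

theorem RNq_span : span F (Set.range (RNq F S n)) = ⊤ := by
  rw [eq_top_iff]
  intro x _
  obtain ⟨r, rfl⟩ := (KS F S n).mkQ_surjective x
  induction r using MonoidAlgebra.induction_on with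
  | of g => exact subset_span ⟨QuotientGroup.mk g, rfl⟩
  | add x y hx hy => rw [map_add]; exact add_mem (hx trivial) (hy trivial)
  | smul c x hx => rw [map_smul]; exact smul_mem _ _ (hx trivial)

/-- The dimension of `F[Γ] / (J + I ^ n)` is at most the index of `R n`. -/
theorem finrank_le_index [(RN F S n).FiniteIndex] :
    Module.finrank F (MonoidAlgebra F Γ ⧸ KS F S n) ≤ (RN F S n).index := by
  classical
  have : Finite (Γ ⧸ RN F S n) := inferInstance
  cases nonempty_fintype (Γ ⧸ RN F S n)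
  have h6 := finrank_range_le_card (R := F) (RNq F S n)
  rw [Set.finrank, RNq_span, finrank_top] at h6
  rw [Subgroup.index_eq_card, Nat.card_eq_fintype_card]
  exact h6

/-- quotients of `F[Γ] / I ^ n` -/
theorem finiteDimensional_KS [h : FiniteDimensional F (MonoidAlgebra F Γ ⧸ augF F Γ n)] :
    FiniteDimensional F (MonoidAlgebra F Γ ⧸ KS F S n) := by
  refine Module.Finite.of_surjective (mapQ (augF F Γ n) (KS F S n) LinearMap.id
    (by rw [comap_id]; exact le_sup_right)) fun y => ?_
  obtain ⟨r, rfl⟩ := (KS F S n).mkQ_surjective y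
  exact ⟨(augF F Γ n).mkQ r, rfl⟩

end Vale.Agent.P300.H708
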