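import Vale.Agent.P300.H753.Fin
import Vale.Agent.P300.H148.TorSpec

/-!
# P300: from the tower of subgroups to `E`-sets with product stabilisers

`K n` a decreasing sequence of subgroups of `E`; the `E`-sets are `E ⧸ K n`.  `Lat a b K`: for every
`e` there are `p, q > 0` with `e a^i b^j e⁻¹ ∈ K n ↔ p ∣ i ∧ q ∣ j` for all `n`.
* `POrd a b s p q`: the stabiliser of `s` in `⟨a, b⟩` is the product lattice `(p, q)`;
* existence of the orders of all points of all `E ⧸ K n`, the orders of a point of `E ⧸ K n` are the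
  orders of its image in `E ⧸ K m`;
* passage to pairs conjugate up to order and inverses (`Tor.ConjPair`);
* the base orbit.
-/

namespace Vale.Agent.P300.H708

open MulAction

variable {E : Type*} [Group E]

/-- The stabiliser of `s` under `(i, j) ↦ a ^ i b ^ j` is `pℤ × qℤ`. -/
def POrd {S : Type*} [MulAction E S] (a b : E) (s : S) (p q : ℕ) : Prop :=
  0 < p ∧ 0 < q ∧ ∀ i j : ℤ, (a ^ i * b ^ j) • s = s ↔ (p : ℤ) ∣ i ∧ (q : ℤ) ∣ j

section POrd

variable {S : Type*} [MulAction E S] {a b : E} {s : S} {p q p' q' : ℕ}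

theorem toPerm_zpow (a : E) (i : ℤ) : (toPerm a : Equiv.Perm S) ^ i = toPerm (a ^ i) :=
  (map_zpow (toPermHom E S) a i).symm

theorem toPerm_mul (a b : E) : (toPerm a : Equiv.Perm S) * toPerm b = toPerm (a * b) :=
  (map_mul (toPermHom E S) a b).symm

/-- the form used in block FIN -/
theorem POrd.ord (h : POrd a b s p q) :
    H753.Ord (toPerm a : Equiv.Perm S) (toPerm b) s p q where
  p0 := h.1
  q0 := h.2.1
  iff k l := by
    rw [toPerm_zpow, toPerm_zpow, toPerm_mul, toPerm_apply]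
    exact h.2.2 k l

theorem POrd.unique (h : POrd a b s p q) (h' : POrd a b s p' q') : p = p' ∧ q = q' := by
  have h1 : ∀ i j : ℤ, ((p : ℤ) ∣ i ∧ (q : ℤ) ∣ j) ↔ ((p' : ℤ) ∣ i ∧ (q' : ℤ) ∣ j) := fun i j =>
    (h.2.2 i j).symm.trans (h'.2.2 i j)
  constructor
  · apply Nat.dvd_antisymm
    · have := ((h1 p' 0).mpr ⟨dvd_rfl, dvd_zero _⟩).1
      exact_mod_cast this
    · have := ((h1 p 0).mp ⟨dvd_rfl, dvd_zero _⟩).1
      exact_mod_cast this
  · apply Nat.dvd_antisymm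
    · have := ((h1 0 q').mpr ⟨dvd_zero _, dvd_rfl⟩).2
      exact_mod_cast this
    · have := ((h1 0 q).mp ⟨dvd_zero _, dvd_rfl⟩).2
      exact_mod_cast this

/-- `(a ^ i b ^ j) s = (a ^ i' b ^ j') s` iff the differences are in the lattice. -/
theorem POrd.eq_iff (h : POrd a b s p q) (hc : Commute a b) (i j i' j' : ℤ) :
    (a ^ i * b ^ j) • s = (a ^ i' * b ^ j') • s ↔ (p : ℤ) ∣ i - i' ∧ (q : ℤ) ∣ j - j' := by
  rw [← h.2.2, ← inv_smul_eq_iff, smul_smul]
  have e : (a ^ i' * b ^ j')⁻¹ * (a ^ i * b ^ j) = a ^ (i - i') * b ^ (j - j') := by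
    have h1 : Commute (b ^ j') (a ^ i) := ((hc.zpow_left i).zpow_right j').symm
    have h2 : Commute (b ^ j') (a ^ i') := ((hc.zpow_left i').zpow_right j').symm
    rw [mul_inv_rev, zpow_sub, zpow_sub]
    have h3 : Commute (b ^ j')⁻¹ (a ^ i * (a ^ i')⁻¹) :=
      (h1.mul_right h2.inv_right).inv_left
    have h4 : (a ^ i')⁻¹ * a ^ i = a ^ i * (a ^ i')⁻¹ := by
      rw [← zpow_neg, ← zpow_add, ← zpow_add, add_comm]
    have h5 : (b ^ j)* (b ^ j')⁻¹ = (b ^ j')⁻¹ * b ^ j := by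
      rw [← zpow_neg, ← zpow_add, ← zpow_add, add_comm]
    calc (b ^ j')⁻¹ * (a ^ i')⁻¹ * (a ^ i * b ^ j)
        = (b ^ j')⁻¹ * ((a ^ i')⁻¹ * a ^ i) * b ^ j := by group
      _ = (b ^ j')⁻¹ * (a ^ i * (a ^ i')⁻¹) * b ^ j := by rw [h4]
      _ = (a ^ i * (a ^ i')⁻¹) * (b ^ j')⁻¹ * b ^ j := by rw [h3.eq]
      _ = (a ^ i * (a ^ i')⁻¹) * (b ^ j * (b ^ j')⁻¹) := by rw [h5, mul_assoc]
  rw [e]

/-- An equivariant map between points with the same orders is injective on the local orbits. -/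
theorem POrd.injOn {S' : Type*} [MulAction E S'] {s' : S'} (h : POrd a b s p q)
    (h' : POrd a b s' p q) (hc : Commute a b) (i j i' j' : ℤ) :
    (a ^ i * b ^ j) • s = (a ^ i' * b ^ j') • s ↔ (a ^ i * b ^ j) • s' = (a ^ i' * b ^ j') • s' := by
  rw [h.eq_iff hc, h'.eq_iff hc]

/-- exchange of the two elements -/
theorem POrd.swap (h : POrd a b s p q) (hc : Commute a b) : POrd b a s q p :=
  ⟨h.2.1, h.1, fun i j => by
    rw [((hc.zpow_left j).zpow_right i).symm.eq, h.2.2, and_comm]⟩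

/-- inverses -/
theorem POrd.units (h : POrd a b s p q) (ε δ : ℤˣ) : POrd (a ^ (ε : ℤ)) (b ^ (δ : ℤ)) s p q :=
  ⟨h.1, h.2.1, fun i j => by
    rw [← zpow_mul, ← zpow_mul, h.2.2, (Units.isUnit ε).dvd_mul_left, (Units.isUnit δ).dvd_mul_left]⟩

/-- conjugation -/
theorem POrd.conj {g : E} (h : POrd a b (g⁻¹ • s) p q) : POrd (g * a * g⁻¹) (g * b * g⁻¹) s p q :=
  ⟨h.1, h.2.1, fun i j => by
    rw [← h.2.2, conj_zpow, conj_zpow]
    have e : g * a ^ i * g⁻¹ * (g * b ^ j * g⁻¹) = g * (a ^ i * b ^ j) * g⁻¹ := by group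
    rw [e, mul_smul, mul_smul, smul_eq_iff_eq_inv_smul]⟩

end POrd

/-! ### The sets `E ⧸ K` -/

theorem smul_mk_eq_iff (K : Subgroup E) (x e : E) :
    x • (QuotientGroup.mk e : E ⧸ K) = QuotientGroup.mk e ↔ e⁻¹ * x * e ∈ K := by
  rw [Quotient.smul_mk, eq_comm, QuotientGroup.eq, smul_eq_mul, mul_assoc]

/-- The projection `E ⧸ K → E ⧸ K'`, `K ≤ K'`. -/
def proj {K K' : Subgroup E} (h : K ≤ K') : (E ⧸ K) →[E] (E ⧸ K') where
  toFun := Subgroup.quotientMapOfLE h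
  map_smul' x s := by
    induction s using QuotientGroup.induction_on with
    | H e => rfl

@[simp] theorem proj_mk {K K' : Subgroup E} (h : K ≤ K') (e : E) :
    proj h (QuotientGroup.mk e : E ⧸ K) = QuotientGroup.mk e := rfl

theorem proj_surjective {K K' : Subgroup E} (h : K ≤ K') : Function.Surjective (proj h) := by
  intro s
  induction s using QuotientGroup.induction_on with
  | H e => exact ⟨QuotientGroup.mk e, rfl⟩

/-- (iii) of the group theory block -/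
def Lat (a b : E) (K : ℕ → Subgroup E) : Prop :=
  ∀ e : E, ∃ p q : ℕ, 0 < p ∧ 0 < q ∧
    ∀ (n : ℕ) (i j : ℤ), e * (a ^ i * b ^ j) * e⁻¹ ∈ K n ↔ (p : ℤ) ∣ i ∧ (q : ℤ) ∣ j

variable {K : ℕ → Subgroup E} {a b : E}

theorem Lat.exists_mk (h : Lat a b K) (e : E) :
    ∃ p q : ℕ, ∀ n, POrd a b (QuotientGroup.mk e : E ⧸ K n) p q := by
  obtain ⟨p, q, hp, hq, H⟩ := h e⁻¹
  refine ⟨p, q, fun n => ⟨hp, hq, fun i j => ?_⟩⟩
  rw [smul_mk_eq_iff, ← H n i j, inv_inv]

/-- **Every point of every `E ⧸ K n` has product stabilisers.** -/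
theorem Lat.exists_ord (h : Lat a b K) {n : ℕ} (s : E ⧸ K n) : ∃ p q : ℕ, POrd a b s p q := by
  induction s using QuotientGroup.induction_on with
  | H e =>
    obtain ⟨p, q, H⟩ := h.exists_mk e
    exact ⟨p, q, H n⟩

/-- **The orders do not change in the tower.** -/
theorem Lat.ord_proj (h : Lat a b K) {m n : ℕ} (hmn : K n ≤ K m) (s : E ⧸ K n) {p q : ℕ} :
    POrd a b (proj hmn s) p q ↔ POrd a b s p q := by
  induction s using QuotientGroup.induction_on with
  | H e =>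
    obtain ⟨p', q', H⟩ := h.exists_mk e
    rw [proj_mk]
    constructor
    · intro h1
      obtain ⟨rfl, rfl⟩ := h1.unique (H m)
      exact H n
    · intro h1
      obtain ⟨rfl, rfl⟩ := h1.unique (H n)
      exact H m

/-- (iii) for a conjugate pair -/
theorem Lat.of_conjPair {G : Type} [Group G] {K : ℕ → Subgroup G} {a b x y : G}
    (h : Lat x y K) (hc : Commute x y) (hp : Tor.ConjPair a b x y) : Lat a b K := by
  obtain ⟨g, ε, δ, ⟨rfl, rfl⟩ | ⟨rfl, rfl⟩⟩ := hp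
  · intro e
    obtain ⟨p, q, hp, hq, H⟩ := h (e * g)
    refine ⟨p, q, hp, hq, fun n i j => ?_⟩
    have e1 : e * ((g * x ^ (ε : ℤ) * g⁻¹) ^ i * (g * y ^ (δ : ℤ) * g⁻¹) ^ j) * e⁻¹ =
        e * g * (x ^ ((ε : ℤ) * i) * y ^ ((δ : ℤ) * j)) * (e * g)⁻¹ := by
      rw [conj_zpow, conj_zpow, ← zpow_mul, ← zpow_mul]; group
    rw [e1, H, (Units.isUnit ε).dvd_mul_left, (Units.isUnit δ).dvd_mul_left]
  · intro e
    obtain ⟨p, q, hp, hq, H⟩ := h (e * g)
    refine ⟨q, p, hq, hp, fun n i j => ?_⟩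
    have e1 : e * ((g * y ^ (ε : ℤ) * g⁻¹) ^ i * (g * x ^ (δ : ℤ) * g⁻¹) ^ j) * e⁻¹ =
        e * g * (x ^ ((δ : ℤ) * j) * y ^ ((ε : ℤ) * i)) * (e * g)⁻¹ := by
      rw [conj_zpow, conj_zpow, ← zpow_mul, ← zpow_mul,
        ((hc.zpow_left ((δ : ℤ) * j)).zpow_right ((ε : ℤ) * i)).eq]; group
    rw [e1, H, (Units.isUnit ε).dvd_mul_left, (Units.isUnit δ).dvd_mul_left, and_comm]

/-! ### The base orbit -/

section base

variable (K' : Subgroup E) {Γ : Type*} [Group Γ] (ι : Γ →* E)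

/-- the orbit of the base point under `Γ` -/
def orb (γ : Γ) : E ⧸ K' := QuotientGroup.mk (ι γ)

variable {K' ι}

theorem orb_eq_iff {γ γ' : Γ} : orb K' ι γ = orb K' ι γ' ↔ γ⁻¹ * γ' ∈ K'.comap ι := by
  rw [orb, orb, QuotientGroup.eq, Subgroup.mem_comap, map_mul, map_inv]

theorem smul_orb (x γ : Γ) : ι x • orb K' ι γ = orb K' ι (x * γ) := by
  rw [orb, orb, map_mul]; rfl

/-- the map of the cosets of `Γ` onto the base orbit -/
def orbMap (K' : Subgroup E) {Γ : Type*} [Group Γ] (ι : Γ →* E) (x : Γ ⧸ K'.comap ι) :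
    Set.range (orb K' ι) :=
  Quotient.liftOn' x (fun γ => ⟨orb K' ι γ, Set.mem_range_self γ⟩) fun _ _ h =>
    Subtype.ext (orb_eq_iff.mpr (QuotientGroup.leftRel_apply.mp h))

/-- the number of points of the base orbit -/
theorem card_orb : Nat.card (Set.range (orb K' ι)) = (K'.comap ι).index := by
  rw [Subgroup.index_eq_card]
  refine Nat.card_congr (Equiv.ofBijective (orbMap K' ι) ⟨?_, ?_⟩).symm
  · intro x y
    induction x using QuotientGroup.induction_on with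
    | H γ =>
      induction y using QuotientGroup.induction_on with
      | H γ' =>
        intro h
        exact QuotientGroup.eq.mpr (orb_eq_iff.mp (congrArg Subtype.val h))
  · rintro ⟨_, γ, rfl⟩
    exact ⟨QuotientGroup.mk γ, rfl⟩

/-- elements all of whose `Γ`-conjugates are in `K'` act trivially on the base orbit -/
theorem smul_orb_eq {t : E} (h : ∀ γ, (ι γ)⁻¹ * t * ι γ ∈ K') (γ : Γ) :
    t • orb K' ι γ = orb K' ι γ := (smul_mk_eq_iff K' t (ι γ)).mpr (h γ)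

end base

end Vale.Agent.P300.H708
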