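import Vale.Agent.P300.H708.Sets
import Vale.Agent.P300.H251.Conj
import Vale.Agent.P300.H951.Local

/-!
# P300: the arrangement `arrE` in `E = Gam ⋊ V` and the passage from the fifteen pairs of the group
theory block (`tt`, `tp` of helper951) to the fifteen pairs of local monodromies of the node table.
-/

namespace Vale.Agent.P300.H708

open SemidirectProduct H951

/-- The five elements of `E`. -/
def arrE : Tor.Arr E where
  c1 := inl c1
  c2 := inl c2
  c3 := inl c3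
  T0 := inr (FreeGroup.of 0)
  T1 := inr (FreeGroup.of 1)
  r01 := by
    rw [← map_inv inr, ← inl_aut, act_0, T0_c1]; simp only [map_mul, map_inv]
  r02 := by
    rw [← map_inv inr, ← inl_aut, act_0, T0_c2]; simp only [map_mul, map_inv]
  r03 := by
    rw [← map_inv inr, ← inl_aut, act_0, T0_c3]
  r11 := by
    rw [← map_inv inr, ← inl_aut, act_1, T1_c1]
  r12 := by
    rw [← map_inv inr, ← inl_aut, act_1, T1_c2]; simp only [map_mul, map_inv]
  r13 := by
    rw [← map_inv inr, ← inl_aut, act_1, T1_c3]; simp only [map_mul, map_inv]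

theorem arrE_c4 : arrE.c4 = inl c4 := by
  rw [Tor.Arr.c4, H951.c4, map_inv, map_mul, map_mul]; rfl

theorem arrE_t0'' : arrE.t0'' = tt 0 := by
  show (inr (FreeGroup.of 0) : E) = inl 1 * inr (FreeGroup.of 0)
  rw [map_one, one_mul]

theorem arrE_t0' : arrE.t0' = tp 0 := by
  rw [tp, ← arrE_t0'']
  show (inl c1 * inl c2 : E)⁻¹ * inr (FreeGroup.of 0) = inl (c1 * c2)⁻¹ * inr (FreeGroup.of 0)
  rw [map_inv, map_mul]

theorem arrE_t1'' : arrE.t1'' = tt 1 := by
  show (inr (FreeGroup.of 1) : E) = inl 1 * inr (FreeGroup.of 1)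
  rw [map_one, one_mul]

theorem arrE_t1' : arrE.t1' = tp 1 := by
  rw [tp, ← arrE_t1'']
  show (inl c2 * inl c3 : E)⁻¹ * inr (FreeGroup.of 1) = inl (c2 * c3)⁻¹ * inr (FreeGroup.of 1)
  rw [map_inv, map_mul]

theorem arrE_ti'' : arrE.ti'' = tt 2 := by
  have h : (inl PP : E) * inr T01⁻¹ = inr T01⁻¹ * inl PP := commute_xx 2
  show ((inl c1 * inl c2 * inl c3 : E)⁻¹ * inr (FreeGroup.of 0) * inr (FreeGroup.of 1))⁻¹ =
    inl PP * inr T01⁻¹
  rw [h, PP, T01, map_mul, map_mul, map_inv, map_mul]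
  group

theorem arrE_ti' : arrE.ti' = tp 2 := by
  rw [tp, ← arrE_ti'']
  show (inl c1 * inl c3 : E)⁻¹ * arrE.ti'' = inl (c1 * c3)⁻¹ * arrE.ti''
  rw [map_inv, map_mul]

/-- Lattices at the fifteen crossings, in the names of helper951. -/
structure LatAll (K : ℕ → Subgroup E) : Prop where
  sa : ∀ s, Lat (inl (H951.sa s)) (tp s) K
  sb : ∀ s, Lat (inl (H951.sb s)) (tp s) K
  sc : ∀ s, Lat (inl (H951.sc s)) (tt s) K
  c4 : ∀ s, Lat (inl H951.c4) (tt s) K
  node : ∀ s, Lat (tp s) (tt s) K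

theorem Lat.swap {E : Type*} [Group E] {a b : E} {K : ℕ → Subgroup E} (h : Lat a b K)
    (hc : Commute a b) : Lat b a K := by
  intro e
  obtain ⟨p, q, hp, hq, H⟩ := h e
  exact ⟨q, p, hq, hp, fun n i j => by
    rw [((hc.zpow_left j).zpow_right i).symm.eq, H, and_comm]⟩

/-- the standard pairs -/
theorem LatAll.std {K : ℕ → Subgroup E} (h : LatAll K) (μ : Fin 15) :
    Lat (arrE.std μ).1 (arrE.std μ).2 K := by
  have hc : ∀ μ, Commute (arrE.std μ).1 (arrE.std μ).2 := fun μ => arrE.std_comm μ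
  have e2 : (inl (H951.sc 2) : E) = arrE.c1 * arrE.c2 * arrE.c1⁻¹ := by
    show (inl (c1 * c2 * c1⁻¹) : E) = inl c1 * inl c2 * (inl c1)⁻¹
    rw [map_mul, map_mul, map_inv]
  fin_cases μ
  · show Lat arrE.t0'' arrE.t0' K
    refine Lat.swap ?_ (hc 0).symm
    show Lat arrE.t0' arrE.t0'' K
    rw [arrE_t0'', arrE_t0']; exact h.node 0
  · show Lat arrE.c2 arrE.t0' K
    rw [arrE_t0']; exact h.sb 0
  · show Lat arrE.t0'' arrE.c3 K
    refine Lat.swap ?_ (hc 2).symm
    show Lat arrE.c3 arrE.t0'' K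
    rw [arrE_t0'']; exact h.sc 0
  · show Lat arrE.c2 arrE.t1' K
    rw [arrE_t1']; exact h.sa 1
  · show Lat arrE.c3 arrE.t1' K
    rw [arrE_t1']; exact h.sb 1
  · show Lat arrE.c1 arrE.t0' K
    rw [arrE_t0']; exact h.sa 0
  · show Lat arrE.t0'' arrE.c4 K
    refine Lat.swap ?_ (hc 6).symm
    show Lat arrE.c4 arrE.t0'' K
    rw [arrE_t0'', arrE_c4]; exact h.c4 0
  · show Lat arrE.c1 arrE.t1'' K
    rw [arrE_t1'']; exact h.sc 1
  · show Lat arrE.c4 arrE.t1'' K
    rw [arrE_t1'', arrE_c4]; exact h.c4 1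
  · show Lat arrE.t1' arrE.t1'' K
    rw [arrE_t1', arrE_t1'']; exact h.node 1
  · show Lat arrE.c1 arrE.ti' K
    rw [arrE_ti']; exact h.sa 2
  · show Lat arrE.c3 arrE.ti' K
    rw [arrE_ti']; exact h.sb 2
  · show Lat (arrE.c1 * arrE.c2 * arrE.c1⁻¹) arrE.ti'' K
    rw [arrE_ti'', ← e2]; exact h.sc 2
  · show Lat arrE.c4 arrE.ti'' K
    rw [arrE_ti'', arrE_c4]; exact h.c4 2
  · show Lat arrE.ti' arrE.ti'' K
    rw [arrE_ti', arrE_ti'']; exact h.node 2

/-- **The local monodromies of the fifteen nodes of the table (and of the extra chart) have product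
lattices, for all conjugates, independent of `n`.** -/
theorem LatAll.table {K : ℕ → Subgroup E} (h : LatAll K) (ν : Fin 16) :
    Lat (arrE.wa ν) (arrE.wb ν) K :=
  (h.std (Tor.Arr.wmu ν)).of_conjPair (arrE.std_comm _) (arrE.conj_table ν)

end Vale.Agent.P300.H708
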