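import Vale.Agent.P300.H708.RN
import Vale.Agent.P300.H959.Alg
import Vale.Agent.P300.H951.Loops

/-!
# P300: the tower of congruence subgroups (output of all the ring theory)
-/

namespace Vale.Agent.P300.H708

open Vale.Agent.P300.GS Submodule MonoidAlgebra

section

variable {F : Type*} [Field F] {Gam V : Type*} [Group Gam] [Group V] {act : V →* MulAut Gam}

/-- `Vn` has finite index over a finite field. -/
theorem Vn_finiteIndex [Finite F] (n : ℕ)
    [FiniteDimensional F (MonoidAlgebra F Gam ⧸ augF F Gam (n + 1))] :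
    (Vn F act n).FiniteIndex := by
  have h1 : Finite (MonoidAlgebra F Gam ⧸ augF F Gam (n + 1)) := Module.finite_of_finite F
  let φ : V → (MonoidAlgebra F Gam ⧸ augF F Gam (n + 1)) → (MonoidAlgebra F Gam ⧸ augF F Gam (n + 1)) :=
    fun v => mapQ (augF F Gam (n + 1)) (augF F Gam (n + 1)) (vact F act v).toLinearMap
      (fun _ ha => vact_augF F act v ha)
  have hφ : ∀ v w, φ v = φ w → v⁻¹ * w ∈ Vn F act n := by
    intro v w h a _
    have h2 := congrFun h ((augF F Gam (n + 1)).mkQ a)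
    simp only [φ, mkQ_apply] at h2
    have h3 : vact F act w a - vact F act v a ∈ augF F Gam (n + 1) :=
      (Submodule.Quotient.eq _).mp h2.symm
    have h4 := vact_augF F act v⁻¹ h3
    rw [map_sub, ← vact_mul, ← vact_mul, inv_mul_cancel, vact_one] at h4
    exact h4
  have h2 : Finite (V ⧸ Vn F act n) := by
    refine Finite.of_injective (fun x : V ⧸ Vn F act n => φ x.out) fun x y h => ?_
    have := hφ _ _ h
    rw [← QuotientGroup.out_eq' x, ← QuotientGroup.out_eq' y]
    exact QuotientGroup.eq.mpr this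
  exact Subgroup.finiteIndex_of_finite_quotient

/-- The relators are stable under `Vn`. -/
theorem Rel_stable {dl : Gam} {n : ℕ} {K : Finset Gam} {q : Gam → ℕ} {v : V} (hv : v ∈ Vn F act n) :
    ∀ s ∈ Rel F act dl n K q, amap F (act v).toMonoidHom s ∈ JS F (Rel F act dl n K q) := by
  rintro s (⟨w, hw, rfl⟩ | ⟨g, hg, w, rfl⟩)
  · have e : amap F (act v).toMonoidHom (of F Gam (act w dl) - 1) = of F Gam (act (v * w) dl) - 1 := by
      rw [map_sub, map_one, amap_of, map_mul]; rfl
    rw [e]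
    exact subset_JS (Or.inl ⟨v * w, mul_mem hv hw, rfl⟩)
  · have e : amap F (act v).toMonoidHom (of F Gam (act w (g ^ q g)) - 1) =
        of F Gam (act (v * w) (g ^ q g)) - 1 := by
      rw [map_sub, map_one, amap_of, map_mul]; rfl
    rw [e]
    exact subset_JS (Or.inr ⟨g, hg, v * w, rfl⟩)

end

/-! ### comparison of the two files with the action of `V` -/

theorem T0_eq : H959.T0 = H951.T0 := by
  apply MulEquiv.ext
  intro x
  have h : (H959.T0 : H951.Gam ≃* H951.Gam).toMonoidHom = H951.T0.toMonoidHom := by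
    apply H951.hom_ext
    · show H959.T0 (H959.c 0) = H951.T0 H951.c1
      rw [H951.T0_c1]; exact H959.T0_c0
    · show H959.T0 (H959.c 1) = H951.T0 H951.c2
      rw [H951.T0_c2]; exact H959.T0_c1
    · show H959.T0 (H959.c 2) = H951.T0 H951.c3
      rw [H951.T0_c3]; exact H959.T0_c2
  exact DFunLike.congr_fun h x

theorem T1_eq : H959.T1 = H951.T1 := by
  apply MulEquiv.ext
  intro x
  have h : (H959.T1 : H951.Gam ≃* H951.Gam).toMonoidHom = H951.T1.toMonoidHom := by
    apply H951.hom_ext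
    · show H959.T1 (H959.c 0) = H951.T1 H951.c1
      rw [H951.T1_c1]; exact H959.T1_c0
    · show H959.T1 (H959.c 1) = H951.T1 H951.c2
      rw [H951.T1_c2]; exact H959.T1_c1
    · show H959.T1 (H959.c 2) = H951.T1 H951.c3
      rw [H951.T1_c3]; exact H959.T1_c2
  exact DFunLike.congr_fun h x

theorem act_eq : H959.act = H951.act := by
  apply FreeGroup.ext_hom
  intro i
  fin_cases i
  · show H959.act (FreeGroup.of 0) = H951.act (FreeGroup.of 0)
    rw [H959.act_0, H951.act_0, T0_eq]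
  · show H959.act (FreeGroup.of 1) = H951.act (FreeGroup.of 1)
    rw [H959.act_1, H951.act_1, T1_eq]

/-- **The tower.** A prime `l`, an exponent `m = l ^ a`, a subgroup `V'` of finite index of `V` and a
decreasing sequence of normal `V'`-stable subgroups of finite index of `Γ`, with unbounded index,
which contain `δ₀` and all the `m`-th powers of the conjugates under `V` of the `cᵢ` and the
`δ_s`. -/
theorem exists_tower (l : ℕ) [Fact l.Prime] : ∃ (a : ℕ) (V' : Subgroup H951.V) (R : ℕ → Subgroup H951.Gam),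
    V'.FiniteIndex ∧ V'.Normal ∧ (∀ n, (R n).Normal) ∧ (∀ n, (R n).FiniteIndex) ∧ Antitone R ∧
    (∀ n, ∀ v ∈ V', ∀ y ∈ R n, H951.act v y ∈ R n) ∧
    (∀ n, H951.dl 0 ∈ R n) ∧
    (∀ n, ∀ v, H951.act v H951.c1 ^ l ^ a ∈ R n ∧ H951.act v H951.c2 ^ l ^ a ∈ R n ∧
      H951.act v H951.c3 ^ l ^ a ∈ R n ∧ H951.act v H951.c4 ^ l ^ a ∈ R n) ∧
    (∀ n, ∀ v, ∀ s, H951.act v (H951.dl s) ^ l ^ a ∈ R n) ∧
    (∀ D, ∃ n, D < (R n).index) := by
  classical
  obtain ⟨n, hn⟩ := H959.alg
  obtain ⟨q₀, hq₀⟩ := hn n le_rfl 7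
  rw [act_eq] at hq₀
  let K : Finset H951.Gam := {H951.c1, H951.c2, H951.c3, H951.c4, H951.dl 0, H951.dl 1, H951.dl 2}
  have hK : K.card ≤ 7 := (Finset.card_insert_le _ _).trans (Nat.succ_le_succ Finset.card_le_six)
  have hl : 1 < l := (Fact.out : l.Prime).one_lt
  let q : H951.Gam → ℕ := fun _ => l ^ q₀
  let S := Rel (ZMod l) H951.act H959.dl n K q
  have hmain : ∀ D : ℕ, ∃ N, D < Module.finrank (ZMod l) (MonoidAlgebra (ZMod l) H951.Gam ⧸
      KS (ZMod l) S N) :=
    hq₀ l K q hK fun g _ => ⟨(Nat.lt_pow_self hl).le, q₀, rfl⟩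
  have hfd : ∀ N, FiniteDimensional (ZMod l) (MonoidAlgebra (ZMod l) H951.Gam ⧸
      augF (ZMod l) H951.Gam N) := fun N => finite_quot_freeGroup (ZMod l) (Fin 3) N
  have hfi : ∀ N, (RN (ZMod l) S N).FiniteIndex := fun N => by
    have := hfd N
    have := finiteDimensional_KS (F := ZMod l) (S := S) (n := N)
    exact RN_finiteIndex
  have hpow : ∀ N, ∀ g ∈ K, ∀ v, H951.act v g ^ l ^ q₀ ∈ RN (ZMod l) S N := by
    intro N g hg v
    refine RN_of_mem (Or.inr ⟨g, hg, v, ?_⟩)
    show of (ZMod l) H951.Gam (H951.act v g ^ l ^ q₀) - 1 = of (ZMod l) H951.Gam (H951.act v (g ^ l ^ q₀)) - 1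
    rw [map_pow (H951.act v)]
  refine ⟨q₀, Vn (ZMod l) H951.act n, RN (ZMod l) S, ?_, inferInstance, fun _ => inferInstance, hfi,
    RN_anti _ _, ?_, ?_, ?_, ?_, ?_⟩
  · have := hfd (n + 1)
    exact Vn_finiteIndex n
  · intro N v hv y hy
    exact RN_map (H951.act v).toMonoidHom (Rel_stable hv) hy
  · intro N
    refine RN_of_mem (Or.inl ⟨1, one_mem _, ?_⟩)
    rw [map_one]
    rfl
  · intro N v
    exact ⟨hpow N _ (by simp [K]) v, hpow N _ (by simp [K]) v, hpow N _ (by simp [K]) v,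
      hpow N _ (by simp [K]) v⟩
  · intro N v s
    refine hpow N _ ?_ v
    fin_cases s <;> simp [K]
  · intro D
    obtain ⟨N, hN⟩ := hmain D
    have := hfi N
    exact ⟨N, hN.trans_le finrank_le_index⟩

end Vale.Agent.P300.H708
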